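import Vale.Agent.P167.FKA.Dual
import Vale.Agent.P167.H192.Q.SDefs

/-!
# P167, the range `0 < q < 1`: the interface between the new base theory and the ported modules

`Q = √q = 2 cos θ`. The fields are facts which are proved from `0 < Q < 1` in the base modules; the
ported modules take them from `Kit Q`.
-/

namespace Vale.Agent.P167.N

open Vale.Agent.P167 Vale.Agent.P167.FK Vale.Agent.P167.FKA Vale.Agent.P167.H192.Q

/-- The standing facts about `0 < Q < 1`. -/
structure Kit (Q : ℝ) : Prop where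
  /-- the range -/
  pos : 0 < Q
  /-- the range -/
  lt : Q < 1
  /-- uniform decay of the primal and dual arms of annuli, for all outside configurations,
  conditionally on everything outside of the annulus -/
  arm : ∃ α C : ℝ, 0 < α ∧ 0 < C ∧ ArmDec Q α C ∧ ArmDecD Q α C
  /-- ratio mixing at a constant ratio -/
  rat : ∃ L : ℤ, 2 ≤ L ∧ ∀ (x : ℤ × ℤ) (r : ℤ) (A V : Finset (ℤ × ℤ)) (F : Cfg → ℝ) (ξ ξ' : Cfg),
    1 ≤ r → Bq x (L * r) ⊆ A → V ⊆ Bq x r → (∀ ω, 0 ≤ F ω) → Loc V F → Good ξ → Good ξ' →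
    Ex Q A ξ F ≤ 4 * Ex Q A ξ' F
  /-- strong Russo-Seymour-Welsh property at a flat side -/
  srsw : SRSW Q

/-- The range of the angle, `2 cos θ = Q ∈ (0, 1)`. -/
structure Ang (θ : ℝ) : Prop where
  /-- the range -/
  gt : Real.pi / 3 < θ
  /-- the range -/
  lt : θ < Real.pi / 2
  /-- the facts -/
  kit : Kit (2 * Real.cos θ)

variable {Q θ : ℝ}

theorem Kit.nonneg (K : Kit Q) : 0 ≤ Q := K.pos.le

theorem Kit.ne (K : Kit Q) : Q ≠ 0 := K.pos.ne'

theorem Kit.le (K : Kit Q) : Q ≤ 1 := K.lt.le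

theorem Kit.lt2 (K : Kit Q) : Q < 2 := by linarith [K.lt]

theorem Kit.le2 (K : Kit Q) : Q ≤ 2 := by linarith [K.lt]

theorem Ang.pos (A : Ang θ) : 0 < θ := by
  have := Real.pi_pos
  linarith [A.gt]

theorem Ang.cos_pos (A : Ang θ) : 0 < Real.cos θ := by
  have := A.kit.pos
  linarith

theorem Ang.sin_pos (A : Ang θ) : 0 < Real.sin θ :=
  Real.sin_pos_of_pos_of_lt_pi A.pos (by have := Real.pi_pos; linarith [A.lt])

end Vale.Agent.P167.N
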