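import Vale.Agent.P167.N.Kit
import Vale.Agent.P167.QE.MainQ

/-!
# P167, the range `0 < q < 1`: the cluster weight `q` and `Q = √q`

In the files of the top layer the parameter is the cluster weight `q`; the hypothesis is `Kit (√q)`.
-/

set_option autoImplicit false

namespace Vale.Agent.P167.N

open Filter Topology
open Vale.Agent.P167 Vale.Agent.P167.FK Vale.Agent.P167.FKA

variable {Q q θ : ℝ}

/-- The Russo-Seymour-Welsh property. -/
theorem Kit.rsw (K : Kit Q) : RSW Q := by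
  obtain ⟨α, C, hα, hC, hA, hD⟩ := K.arm
  have hlim : Tendsto (fun n : ℕ => C * ((1 : ℝ) / n) ^ α) atTop (𝓝 (C * (0 : ℝ) ^ α)) :=
    (tendsto_one_div_atTop_nhds_zero_nat.rpow_const (Or.inr hα.le)).const_mul C
  rw [Real.zero_rpow hα.ne', mul_zero] at hlim
  obtain ⟨n, hn1, hn2⟩ := ((hlim.eventually_lt_const (show (0 : ℝ) < 1 / 2 by norm_num)).and
    (eventually_ge_atTop 2)).exists
  refine ⟨n, 1 / 2, by exact_mod_cast hn2, by norm_num, fun x r hr => ?_⟩
  have hr0 : (0 : ℝ) < r := by exact_mod_cast (by omega : (0 : ℤ) < r)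
  have hn0 : (0 : ℝ) < n := by exact_mod_cast (by omega : 0 < n)
  have hrR : r ≤ (n : ℤ) * r := by
    have : (1 : ℤ) ≤ n := by exact_mod_cast (by omega : 1 ≤ n)
    nlinarith
  have e : (r : ℝ) / (((n : ℤ) * r : ℤ) : ℝ) = 1 / n := by
    push_cast
    field_simp
  constructor
  · have h := hA x r ((n : ℤ) * r) (Bq x ((n : ℤ) * r)) eta1 (fun _ => 1) hr hrR f_good.2.2
      Finset.sdiff_subset (fun _ => zero_le_one) (fun _ _ _ => rfl)
    simp only [one_mul] at h
    rw [Ex_const K.pos, mul_one, e] at h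
    have h2 : Pr Q (Bq x ((n : ℤ) * r)) eta1 {ω | ArmPx x r ((n : ℤ) * r) ω} ≤
      C * ((1 : ℝ) / n) ^ α := h
    linarith
  · have h := hD x r ((n : ℤ) * r) (Bq x ((n : ℤ) * r)) eta0 (fun _ => 1) hr hrR f_good.2.1
      Finset.sdiff_subset (fun _ => zero_le_one) (fun _ _ _ => rfl)
    simp only [one_mul] at h
    rw [Ex_const K.pos, mul_one, e] at h
    have h2 : Pr Q (Bq x ((n : ℤ) * r)) eta0 {ω | ArmDx x r ((n : ℤ) * r) ω} ≤
      C * ((1 : ℝ) / n) ^ α := h
    linarith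

/-! ### `Q = √q` -/

theorem Kit.q_pos (K : Kit (√q)) : 0 < q := Real.sqrt_pos.1 K.pos

theorem Kit.q_lt (K : Kit (√q)) : q < 1 := by
  have h := (Real.sqrt_lt' one_pos).1 K.lt
  rwa [one_pow] at h

theorem Kit.q_le (K : Kit (√q)) : q ≤ 1 := K.q_lt.le

theorem Kit.q_lt4 (K : Kit (√q)) : q < 4 := by linarith [K.q_lt]

theorem Kit.q_le4 (K : Kit (√q)) : q ≤ 4 := by linarith [K.q_lt]

theorem Kit.q_sq (K : Kit (√q)) : √q ^ 2 = q := Real.sq_sqrt K.q_pos.le

theorem Kit.muq_eq (K : Kit (√q)) : 2 * Real.cos (QE.muq q) = √q := QE.cos_muq K.q_le4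

/-- The angle of the cluster weight. -/
theorem Kit.ang (K : Kit (√q)) : Ang (QE.muq q) where
  gt := by
    have h1 : Real.arccos (1 / 2) = Real.pi / 3 := by
      rw [← Real.cos_pi_div_three]
      exact Real.arccos_cos (by positivity) (by linarith [Real.pi_pos])
    rw [QE.muq, ← h1]
    have h2 := K.pos
    have h3 := K.lt
    exact Real.arccos_lt_arccos (by linarith) (by linarith) (by norm_num)
  lt := QE.muq_lt K.q_pos
  kit := by rw [K.muq_eq]; exact K

theorem Ang.cos_lt (A : Ang θ) : 2 * Real.cos θ < 1 := A.kit.lt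

theorem Ang.sqrt_eq (A : Ang θ) : √((2 * Real.cos θ) ^ 2) = 2 * Real.cos θ :=
  Real.sqrt_sq A.kit.pos.le

/-- The kit of the cluster weight `(2 cos θ)²`. -/
theorem Ang.kitQ (A : Ang θ) : Kit (√((2 * Real.cos θ) ^ 2)) := by
  rw [A.sqrt_eq]
  exact A.kit

theorem Ang.muq_eq (A : Ang θ) : QE.muq ((2 * Real.cos θ) ^ 2) = θ := by
  rw [QE.muq, A.sqrt_eq, mul_div_cancel_left₀ _ (two_ne_zero)]
  exact Real.arccos_cos A.pos.le (by linarith [A.lt, Real.pi_pos])

end Vale.Agent.P167.N
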