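import Mathlib.Analysis.SpecialFunctions.Trigonometric.Complex
import Mathlib.Analysis.SpecialFunctions.Trigonometric.Deriv
import Mathlib.Analysis.SpecialFunctions.Trigonometric.ArctanDeriv
import Mathlib.Analysis.SpecialFunctions.Log.Deriv
import Mathlib.Analysis.Calculus.MeanValue
import Mathlib.Analysis.Real.Pi.Bounds

/-!
# P167, `0 < q < 1`: the constants of the weight of a small loop

`0 ≤ θ < π / 2`. A small charge `t` satisfies `|t| ≤ dw θ`; then
`exp (- tan θ t - kw θ t ^ 2) ≤ cos (θ + t) / cos θ ≤ exp (- tan θ t)`.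
-/

namespace Vale.Agent.P167.N

/-- The allowed size of a small charge. -/
noncomputable def dw (θ : ℝ) : ℝ := min (1 / 10) ((Real.pi / 2 - θ) / 2)

/-- The constant of the quadratic term. -/
noncomputable def kw (θ : ℝ) : ℝ := 1 / Real.cos (θ + dw θ) ^ 2

variable {θ t : ℝ}

theorem dw_pos (h : θ < Real.pi / 2) : 0 < dw θ := lt_min (by norm_num) (by linarith)

theorem dw_le (θ : ℝ) : dw θ ≤ 1 / 10 := min_le_left _ _

theorem dw_le' (θ : ℝ) : dw θ ≤ (Real.pi / 2 - θ) / 2 := min_le_right _ _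

theorem add_dw_lt (h : θ < Real.pi / 2) : θ + dw θ < Real.pi / 2 := by
  have := dw_le' θ
  linarith

theorem cos_dw_pos (h0 : 0 ≤ θ) (h : θ < Real.pi / 2) : 0 < Real.cos (θ + dw θ) :=
  Real.cos_pos_of_mem_Ioo ⟨by linarith [dw_pos h, Real.pi_pos], add_dw_lt h⟩

/-- The weight of a small charge is bounded from below. -/
theorem cos_dw_le (h0 : 0 ≤ θ) (h : θ < Real.pi / 2) (ht : |t| ≤ dw θ) :
    Real.cos (θ + dw θ) ≤ Real.cos (θ + t) := by
  have h1 := abs_le.1 ht
  have h2 := add_dw_lt h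
  have h3 := Real.pi_pos
  rw [← Real.cos_abs (θ + t)]
  refine Real.cos_le_cos_of_nonneg_of_le_pi (abs_nonneg _) (by linarith) ?_
  rw [abs_le]
  constructor <;> linarith

theorem cos_add_pos (h0 : 0 ≤ θ) (h : θ < Real.pi / 2) (ht : |t| ≤ dw θ) :
    0 < Real.cos (θ + t) := (cos_dw_pos h0 h).trans_le (cos_dw_le h0 h ht)

theorem kw_pos (h0 : 0 ≤ θ) (h : θ < Real.pi / 2) : 0 < kw θ := by
  have := cos_dw_pos h0 h
  unfold kw
  positivity

theorem one_le_kw (h0 : 0 ≤ θ) (h : θ < Real.pi / 2) : 1 ≤ kw θ := by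
  have h1 := cos_dw_pos h0 h
  unfold kw
  rw [le_div_iff₀ (by positivity), one_mul]
  exact pow_le_one₀ h1.le (Real.cos_le_one _)

theorem zero_of_slope {f f' : ℝ → ℝ} {δ : ℝ} (hf : ∀ t, |t| ≤ δ → HasDerivAt f (f' t) t)
    (h0 : f 0 = 0) (h : ∀ t, |t| ≤ δ → 0 ≤ t * f' t) : ∀ t, |t| ≤ δ → 0 ≤ f t := by
  intro t ht
  have ht' := abs_le.1 ht
  rcases lt_trichotomy t 0 with h1 | h1 | h1
  · obtain ⟨c, hc, e⟩ := exists_hasDerivAt_eq_slope f f' h1
      (fun x hx => (hf x (abs_le.2 ⟨by linarith [hx.1], by linarith [hx.2]⟩)).continuousAt.continuousWithinAt)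
      (fun x hx => hf x (abs_le.2 ⟨by linarith [hx.1], by linarith [hx.2]⟩))
    have h2 := h c (abs_le.2 ⟨by linarith [hc.1], by linarith [hc.2]⟩)
    rw [h0, zero_sub, zero_sub, neg_div_neg_eq] at e
    have h3 : f' c ≤ 0 := by
      by_contra h3
      nlinarith [hc.2]
    have h4 : f t = f' c * t := by
      rw [e, div_mul_cancel₀ _ h1.ne]
    rw [h4]
    exact mul_nonneg_of_nonpos_of_nonpos h3 h1.le
  · rw [h1, h0]
  · obtain ⟨c, hc, e⟩ := exists_hasDerivAt_eq_slope f f' h1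
      (fun x hx => (hf x (abs_le.2 ⟨by linarith [hx.1], by linarith [hx.2]⟩)).continuousAt.continuousWithinAt)
      (fun x hx => hf x (abs_le.2 ⟨by linarith [hx.1], by linarith [hx.2]⟩))
    have h2 := h c (abs_le.2 ⟨by linarith [hc.1], by linarith [hc.2]⟩)
    rw [h0, sub_zero, sub_zero] at e
    have h3 : 0 ≤ f' c := by
      by_contra h3
      nlinarith [hc.1]
    have h4 : f t = f' c * t := by
      rw [e, div_mul_cancel₀ _ h1.ne']
    rw [h4]
    exact mul_nonneg h3 h1.le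

theorem deriv_lc (h0 : 0 ≤ θ) (h : θ < Real.pi / 2) (ht : |t| ≤ dw θ) :
    HasDerivAt (fun t => Real.log (Real.cos (θ + t))) (-Real.tan (θ + t)) t := by
  have h1 := cos_add_pos h0 h ht
  have h2 : HasDerivAt (fun t => Real.cos (θ + t)) (-Real.sin (θ + t)) t := by
    have := HasDerivAt.comp_const_add θ t (Real.hasDerivAt_cos (θ + t))
    exact this
  have h3 := h2.log h1.ne'
  rwa [neg_div, ← Real.tan_eq_sin_div_cos] at h3

theorem deriv_tn (h0 : 0 ≤ θ) (h : θ < Real.pi / 2) (ht : |t| ≤ dw θ) :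
    HasDerivAt (fun t => Real.tan (θ + t)) (1 / Real.cos (θ + t) ^ 2) t := by
  have h1 := cos_add_pos h0 h ht
  exact HasDerivAt.comp_const_add θ t (Real.hasDerivAt_tan h1.ne')

theorem tan_mono (h0 : 0 ≤ θ) (h : θ < Real.pi / 2) :
    ∀ t, |t| ≤ dw θ → 0 ≤ t * (Real.tan (θ + t) - Real.tan θ) := by
  intro t ht
  have h1 := abs_le.1 ht
  have h2 := add_dw_lt h
  have h3 := dw_pos h
  have h4 := dw_le θ
  have hpi := Real.pi_gt_three
  have hm := Real.strictMonoOn_tan.monotoneOn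
  rcases le_total 0 t with h5 | h5
  · refine mul_nonneg h5 (sub_nonneg.2 (hm ⟨by linarith, by linarith⟩ ⟨by linarith, by linarith⟩
      (by linarith)))
  · refine mul_nonneg_of_nonpos_of_nonpos h5 (sub_nonpos.2 (hm ⟨by linarith, by linarith⟩
      ⟨by linarith, by linarith⟩ (by linarith)))

theorem tan_up (h0 : 0 ≤ θ) (h : θ < Real.pi / 2) :
    ∀ t, |t| ≤ dw θ → t * (Real.tan (θ + t) - Real.tan θ) ≤ kw θ * t ^ 2 := by
  intro t ht
  have ht' := abs_le.1 ht
  have key : ∀ c, |c| ≤ dw θ → 1 / Real.cos (θ + c) ^ 2 ≤ kw θ := fun c hc => by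
    have h1 := cos_dw_pos h0 h
    have h2 := cos_dw_le h0 h hc
    unfold kw
    exact one_div_le_one_div_of_le (by positivity) (pow_le_pow_left₀ h1.le h2 2)
  rcases lt_trichotomy t 0 with h1 | h1 | h1
  · obtain ⟨c, hc, e⟩ := exists_hasDerivAt_eq_slope (fun t => Real.tan (θ + t))
      (fun t => 1 / Real.cos (θ + t) ^ 2) h1
      (fun x hx => (deriv_tn h0 h (abs_le.2 ⟨by linarith [hx.1], by linarith [hx.2]⟩)).continuousAt.continuousWithinAt)
      (fun x hx => deriv_tn h0 h (abs_le.2 ⟨by linarith [hx.1], by linarith [hx.2]⟩))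
    have h2 := key c (abs_le.2 ⟨by linarith [hc.1], by linarith [hc.2]⟩)
    rw [add_zero, eq_div_iff (by linarith)] at e
    have h3 : Real.tan (θ + t) - Real.tan θ = 1 / Real.cos (θ + c) ^ 2 * t := by linarith
    rw [h3]
    nlinarith [sq_nonneg t]
  · rw [h1]; simp
  · obtain ⟨c, hc, e⟩ := exists_hasDerivAt_eq_slope (fun t => Real.tan (θ + t))
      (fun t => 1 / Real.cos (θ + t) ^ 2) h1
      (fun x hx => (deriv_tn h0 h (abs_le.2 ⟨by linarith [hx.1], by linarith [hx.2]⟩)).continuousAt.continuousWithinAt)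
      (fun x hx => deriv_tn h0 h (abs_le.2 ⟨by linarith [hx.1], by linarith [hx.2]⟩))
    have h2 := key c (abs_le.2 ⟨by linarith [hc.1], by linarith [hc.2]⟩)
    rw [add_zero, eq_div_iff (by linarith)] at e
    have h3 : Real.tan (θ + t) - Real.tan θ = 1 / Real.cos (θ + c) ^ 2 * t := by linarith
    rw [h3]
    nlinarith [sq_nonneg t]

/-- **Upper bound of the weight of a small loop.** -/
theorem cos_le_exp (h0 : 0 ≤ θ) (h : θ < Real.pi / 2) (ht : |t| ≤ dw θ) :
    Real.cos (θ + t) / Real.cos θ ≤ Real.exp (-(Real.tan θ * t)) := by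
  have hc : 0 < Real.cos θ := Real.cos_pos_of_mem_Ioo ⟨by linarith [Real.pi_pos], h⟩
  have h1 := cos_add_pos h0 h ht
  have key := zero_of_slope (δ := dw θ)
    (f := fun t => -(Real.log (Real.cos (θ + t)) - Real.log (Real.cos θ)) - Real.tan θ * t)
    (f' := fun t => Real.tan (θ + t) - Real.tan θ) (fun t ht => by
      have h2 := (((deriv_lc h0 h ht).sub_const (Real.log (Real.cos θ))).neg).sub
        ((hasDerivAt_id t).const_mul (Real.tan θ))
      have e : -(-Real.tan (θ + t)) - Real.tan θ * 1 = Real.tan (θ + t) - Real.tan θ := by ring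
      rw [e] at h2
      exact h2) (by simp) (tan_mono h0 h) t ht
  rw [← Real.log_le_iff_le_exp (by positivity), Real.log_div h1.ne' hc.ne']
  linarith

/-- **Lower bound of the weight of a small loop.** -/
theorem exp_le_cos (h0 : 0 ≤ θ) (h : θ < Real.pi / 2) (ht : |t| ≤ dw θ) :
    Real.exp (-(Real.tan θ * t) - kw θ * t ^ 2) ≤ Real.cos (θ + t) / Real.cos θ := by
  have hc : 0 < Real.cos θ := Real.cos_pos_of_mem_Ioo ⟨by linarith [Real.pi_pos], h⟩
  have h1 := cos_add_pos h0 h ht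
  have hk := kw_pos h0 h
  have key := zero_of_slope (δ := dw θ)
    (f := fun t => (Real.log (Real.cos (θ + t)) - Real.log (Real.cos θ)) + Real.tan θ * t +
      kw θ * t ^ 2)
    (f' := fun t => -(Real.tan (θ + t) - Real.tan θ) + 2 * kw θ * t) (fun t ht => by
      have h2 := (((deriv_lc h0 h ht).sub_const (Real.log (Real.cos θ))).add
        ((hasDerivAt_id t).const_mul (Real.tan θ))).add (((hasDerivAt_id t).pow 2).const_mul (kw θ))
      have e : -Real.tan (θ + t) + Real.tan θ * 1 + kw θ * (((2 : ℕ) : ℝ) * id t ^ (2 - 1) * 1) =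
        -(Real.tan (θ + t) - Real.tan θ) + 2 * kw θ * t := by
        simp only [id]; norm_num; ring
      rw [e] at h2
      exact h2) (by simp) (fun t ht => by
        have := tan_up h0 h t ht
        nlinarith [sq_nonneg t]) t ht
  rw [← Real.le_log_iff_exp_le (by positivity), Real.log_div h1.ne' hc.ne']
  linarith

/-- Alias of `cos_add_pos`. -/
theorem cos_add_ge (h0 : 0 ≤ θ) (h : θ < Real.pi / 2) (ht : |t| ≤ dw θ) :
    0 < Real.cos (θ + t) := cos_add_pos h0 h ht

/-- Alias of `cos_le_exp`. -/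
theorem wR_le_exp' (h0 : 0 ≤ θ) (h : θ < Real.pi / 2) (ht : |t| ≤ dw θ) :
    Real.cos (θ + t) / Real.cos θ ≤ Real.exp (-(Real.tan θ * t)) := cos_le_exp h0 h ht

/-- Alias of `exp_le_cos`. -/
theorem exp_le_wR' (h0 : 0 ≤ θ) (h : θ < Real.pi / 2) (ht : |t| ≤ dw θ) :
    Real.exp (-(Real.tan θ * t) - kw θ * t ^ 2) ≤ Real.cos (θ + t) / Real.cos θ :=
  exp_le_cos h0 h ht

/-- The total allowed charge times the slope. -/
theorem tan_mul_dw (h0 : 0 ≤ θ) (h : θ < Real.pi / 2) : Real.tan θ * dw θ ≤ 1 := by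
  have hc : 0 < Real.cos θ := Real.cos_pos_of_mem_Ioo ⟨by linarith [Real.pi_pos], h⟩
  have h1 := dw_le' θ
  have h2 : Real.sin (Real.pi / 2 - θ) = Real.cos θ := Real.sin_pi_div_two_sub θ
  have h3 : Real.pi / 2 - θ ≤ 2 * Real.cos θ := by
    have h4 := Real.mul_le_sin (x := Real.pi / 2 - θ) (by linarith) (by linarith)
    rw [h2] at h4
    have hpi := Real.pi_le_four
    have hpi0 := Real.pi_pos
    have h5 : 2 / Real.pi * (Real.pi / 2 - θ) * Real.pi = 2 * (Real.pi / 2 - θ) := by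
      field_simp
    nlinarith
  have h6 : 0 ≤ Real.sin θ := Real.sin_nonneg_of_nonneg_of_le_pi h0 (by linarith [Real.pi_pos])
  rw [Real.tan_eq_sin_div_cos, div_mul_eq_mul_div, div_le_one hc]
  have h7 := Real.sin_le_one θ
  have h8 := (dw_pos h).le
  nlinarith

end Vale.Agent.P167.N
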